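import Vale.Agent.P269.San.Line
import Vale.Agent.P269.Asm.Fin

/-! The invariants of degree one of a line, without hypotheses. -/

namespace Vale.Agent.P269

theorem St.pjT_line : (pjT 1).Ln (Pi.single none 1) fun o => o.elim 1 0 :=
  have hS : Spec := spec_of well
  have hM : PrQ := prQ_of (prC well) well
  pjT_ln (loc_of (locG_of hS wellD (rel dg) lFour)) hS norm res well
    (dil_of (ucP forget well) well fbD) (prodT_of hM (add well) hS) (unQ hM threeT (add well) hS)

open MvPolynomial in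
theorem Tf.line (N r : ℕ) (d : Fin r → ℕ) (F : Fin r → MvPolynomial (Fin (N + 1)) ℂ)
    (hF : ∀ k, (F k).IsHomogeneous (d k))
    (hs : ∀ x ∈ Pub.cone F, LinearIndependent ℂ fun k j => eval x (pderiv j (F k)))
    (hc : ConnectedSpace (Pub.Var F)) (hd : ∀ k, d k = 1) (hN : N = r + 1) (β)
    (hβ : Pub.IsFund Pub.scal (Pub.cone F) β) (n : ℕ) (a : Fin n → Pub.Co (Pub.Var F))
    (ha : ∀ i, Pub.Zc (a i) ∧ Pub.IsDeg 2 (a i)) :
    Pub.IsGW (Y := Pub.Var F) F (Pub.cone F) (Quot.mk _) 0 β n (fun i => (0, a i)) 1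
      (∏ i, β (a i)) := by
  subst hN
  exact Tf.line_of St.well St.pres (St.div St.forget St.well) St.pjT_line r F
    (fun k => by simpa only [hd k] using hF k) hs hc β hβ n a ha

end Vale.Agent.P269
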