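import Vale.Agent.P269.San.Loc
import Vale.Agent.P269.WK.Geo
import Vale.Agent.P269.Pub.T7

/-! The number of lines on a line. -/

set_option linter.unusedSectionVars false

namespace Vale.Agent.P269

open P291Z Set Function Filter Fock MvPolynomial Tq Mono

variable {R R' J J' K K' I : Type} [Fintype R] [Fintype R'] [Fintype J] [Fintype J'] [Fintype K]
  [Fintype K'] [Fintype I] [DecidableEq R] [DecidableEq R']

open Cv in
/-- A stable map of genus zero and degree one without marked points has a connected domain. -/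
theorem AM.Sol.conn_of {ν κ : Type} [Fintype ν] [Fintype κ] [IsEmpty ν] [IsEmpty κ]
    {F : Fam Empty Empty R J K} {θ₀ : R → ℤ} {N : ℕ} (hA : F.Ample θ₀ N) {m : AM Empty R J ν κ}
    (h : m.Sol F) (hs : m.Stable F.θ) {d : R → ℤ} (ht : m.Typ 0 d) (hd : ∑ r, θ₀ r * d r = 1) :
    m.Conn := by
  classical
  have hT : ∀ V, V ∈ m.finite_cmp.toFinset ↔ ∃ z ∈ univ, V = m.cmp z := fun V =>
    m.finite_cmp.mem_toFinset.trans ⟨fun ⟨z, e⟩ => ⟨z, trivial, e.symm⟩, fun ⟨z, _, e⟩ => ⟨z, e.symm⟩⟩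
  have a := AC.sat_univ.degOn_eq_sum (omega m.R m.N ∅) hT
  have b := AC.sat_univ.degOn_eq_sum (bz m.L θ₀) hT
  rw [degOn_univ, deg_omega, ht.1] at a
  rw [degOn_univ, ht.deg_bz, hd] at b
  have c : ∀ V ∈ m.finite_cmp.toFinset, 0 ≤ degOn (omega m.R m.N ∅) V + 2 * degOn (bz m.L θ₀) V ∧
      (degOn (omega m.R m.N ∅) V + 2 * degOn (bz m.L θ₀) V = 0 → 1 ≤ degOn (bz m.L θ₀) V) :=
    fun V hV => by
      obtain ⟨z, -, rfl⟩ := (hT V).1 hV
      obtain ⟨k, e⟩ := AC.degOn_omega_cmp (c := m.toAC) z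
      have k1 := hs _ (AC.sat_cmp z).1 ⟨z, AC.mem_cmp_self z⟩
      have k2 := h.degOn_nonneg hA (m.cmp z)
      rw [degOn_mul, AC.degOn_ω_eq (AC.sat_cmp z).1, hA.1, AM.degOn_nsmul, Finset.univ_eq_empty,
        Finset.filter_empty, Finset.card_empty] at k1
      omega
  have e := (Finset.sum_eq_zero_iff_of_nonneg fun V hV => (c V hV).1).1 (by
    rw [Finset.sum_add_distrib, ← Finset.mul_sum, ← a, ← b]
    simp)
  have f := Finset.card_nsmul_le_sum _ _ _ fun V hV => (c V hV).2 (e V hV)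
  rw [← b, nsmul_one, Nat.cast_le_one, Finset.card_le_one] at f
  obtain ⟨V, hV, -⟩ := Finset.exists_ne_zero_of_sum_ne_zero (b.symm.trans_ne one_ne_zero)
  obtain ⟨z, -, rfl⟩ := (hT V).1 hV
  exact AC.conn_iff_cmp.2 ⟨z, eq_univ_of_forall fun y =>
    f _ ((hT _).2 ⟨y, trivial, rfl⟩) _ hV ▸ AC.mem_cmp_self y⟩

/-- A presentation of the projective line: `χ` is the class of a point, `d` the degree of the
line. -/
def Fam.Ln (F : Fam Empty Empty R J K) (χ d : R → ℤ) : Prop :=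
  (∀ c, ∃ a b : ℂ, c = a • 1 + b • F.lc F.cone 0 χ) ∧ F.intX _ (F.lc F.cone 0 χ) = 1 ∧
    ∀ k, F.Big k → F.cor k F.ex0 0 F.cone F.cone d (-1) [] [] [] = 1

theorem Fam.Pres.ln_iff (hP : St.Pres) {F : Fam Empty Empty R J K} {F' : Fam Empty Empty R' J' K'}
    {φ : J → J'} {s : I → J'} {M σ} (h : F.Pres F' φ s M σ) (hF : F.Tg) (hF' : F'.Tg) {χ χ' d d'}
    (e1 : χ = fun r => ∑ r', χ' r' * M r' r) (e2 : d' = fun r' => ∑ r, M r' r * d r) :
    F.Ln χ d ↔ F'.Ln χ' d' := by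
  subst e1 e2
  obtain ⟨g, hg⟩ := h.cohIso St.presH hF.movc hF.nice hF'.nice (Fam.cp_empty _)
  have key := fun k k' hk hk' => (hP F F' φ s M σ k k' (fun _ _ _ => True) (fun _ _ _ => True) 1 h
    hF.movc (.of_abs hF'.movc _) hF.nice hF'.nice (Fam.cp_empty _) hk hk'
    (PA.exOk St.selC hF.toGood hk _) (PA.exOk St.selC hF'.toGood hk' _) (fun _ _ _ _ => Iff.rfl)
    Subset.rfl (-1) [] []).1 d
  simp only [map_one] at key
  obtain ⟨k, hk⟩ := hF.toGood.exists_big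
  obtain ⟨k', hk'⟩ := hF'.toGood.exists_big
  refine and_congr ⟨fun a c => ?_, fun a c => ?_⟩ (and_congr (by rw [← hg.lc, hg.int])
    ⟨fun a _ b => (key _ _ hk b).trans (a k hk), fun a _ b => (key _ _ b hk').symm.trans (a k' hk')⟩)
  · obtain ⟨x, y, e⟩ := a (g c)
    exact ⟨x, y, g.injective (by rw [e, map_add, map_smul, map_smul, map_one, hg.lc])⟩
  · obtain ⟨x, y, e⟩ := a (g.symm c)
    exact ⟨x, y, by rw [← g.apply_symm_apply c, e, map_add, map_smul, map_smul, map_one, hg.lc]⟩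

open WK PA in
theorem pjT_ln (hL : St.Loc) (hS : St.Spec) (hN : St.Norm) (hR : St.Res) (hW : St.Well)
    (hD : St.Dil) (hT : St.ProdT) (hU : St.UnQ) :
    (pjT 1).Ln (Pi.single none 1) fun o => o.elim 1 0 := by
  have hF : ptT.Tg := (smCI_of_isEmpty _ _).tg
  have hE : (pjT 1).Tg := pjT_tg
  have := hF.toGood.fp
  have := hF.compact
  have hd : Dim ptT.actT ptT.cone 0 := by simpa using hF.dim
  have e1 : ∀ z : ℂ, ptT.intX ptT.cone (z • 1) = z * 1 := fun z => by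
    rw [Wt.intX_eq, map_smul, hd.intg_one ⟨_, one_mem_ciF⟩, smul_eq_mul]
  obtain ⟨C, i, hc⟩ : ∃ C i, ptT.IsCoh C i := ⟨_, _, (ptT_std one_ne_zero e1 fun χ =>
    hd.H_eq_zero (Wt.lc_deg 0 χ) (by simp)).1.toIsCoh⟩
  obtain ⟨π, LF, LE, -, lE, -, -, pb, -, h7, -, h9⟩ := St.prjLH _ 0 _ hF one_pos hE.toGood
  refine ⟨fun c => ?_, ?_, fun k hk => ?_⟩
  · obtain ⟨v, rfl⟩ := h7.2 c
    obtain ⟨a, ha⟩ := exists_smul_one (v 0)
    obtain ⟨b, hb⟩ := exists_smul_one (v 1)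
    exact ⟨a, b, by simp [ha, hb, H.map_smulC, lE]⟩
  · have k := h9 1 1
    simp only [B.xc_of_le _ le_rfl, if_true, OneMemClass.coe_one, pow_one, map_one, mul_one,
      lE] at k
    exact k.trans (by simpa using e1 1)
  have hp := isPt_ciF hc
  have := hp.ev
  obtain ⟨ac, hac⟩ := exists_act hc
  obtain ⟨w, hw⟩ := exists_li 2
  obtain ⟨i₀, h0, e0⟩ : ∃ i₀ : C.H →ₗ[ℂ] _, (∀ v, i₀ v = (pjT 1).pb ptT.toWt
      (fun z => (z.1, z.2 ∘ .inl)) _ (i v)) ∧ IsEv C.p (parH _) i₀ :=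
    ⟨(H.mapA π).toLinearMap ∘ₗ i, fun v => (pb _).symm, (PA.isEv_map π).comp hc.ev⟩
  obtain ⟨iP, h1⟩ : ∃ iP : (Fin 2 → C.H) →ₗ[ℂ] _, ∀ v, iP v = ∑ l : Fin 2,
      (pjT 1).lc _ 0 (Pi.single none 1) ^ (l : ℕ) * i₀ (v l) :=
    ⟨∑ l : Fin 2, LinearMap.mulLeft ℂ (_ ^ (l : ℕ)) ∘ₗ i₀ ∘ₗ LinearMap.proj l, fun v =>
      LinearMap.sum_apply ..⟩
  have eP : IsEv (C.p.pi _) (parH _) iP := fun v => by
    rw [h1, h1, map_sum]
    exact Finset.sum_congr rfl fun l _ => by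
      rw [Tq.parH_mul, ← lE, Tq.parH_Hev (pow_mem (LE _).2 _), Par.pi_σ, e0]
  choose Cn hC using show ∀ n, ∃ C', Raw (fun j m x => Zv k i₀ w n 0 m j (mp C.fr x)) C' from
    fun n => by
      have hV := pt_vx hE.toGood hk n
      simp only [Zv, ser0_rs hR hV.nice hV.cp hV.big (hV.exOk_exT _) (vx_sub n), dgV_zero,
        Qrr.Asm.thV_eq]
      exact ⟨_, hV.raw _ _ _ (vx_isCoh hF hE.toGood e0 h0 hc n) hS hW hN hT hU hD⟩
  exact (ser0_mon hS hE.nice (Fam.cp_empty _) hk (exOk St.selC hE.toGood hk _) Subset.rfl eP _ _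
    []).symm.trans (one_of_out hp (hw.injective.ne zero_ne_one) hC fun ZF e =>
      hL _ 0 _ k C i i₀ iP ac 0 w ZF hF one_pos hE.toGood hk hc h0 h1 e0 eP hac
        (fun _ => Wt.lc_zero.symm) (fun _ => .zero) hw e)

/-- Elimination of a linear equation. -/
theorem SmCI.exists_red [DecidableEq J] [DecidableEq K] {F : K → MvPolynomial J ℂ} {d : K → ℕ} (h : SmCI F d) {x₀ : J → ℂ}
    (hx₀ : x₀ ∈ (ciK F).cone) {k₀ : K} (hk : d k₀ = 1) :
    ∃ (j₀ : J) (σ : J → MvPolynomial {j // j ≠ j₀} ℂ)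
      (F₀ : {k // k ≠ k₀} → MvPolynomial {j // j ≠ j₀} ℂ), SmCI F₀ (fun k => d k) ∧
      x₀ ∘ Subtype.val ∈ (ciK F₀).cone ∧ (ciF F₀ fun k => d k).Pres (ciF F d) Subtype.val
        (Empty.elim : Empty → J) (fun _ _ => 1) fun j => MvPolynomial.map MvPolynomial.C (σ j) := by
  obtain ⟨a, ha⟩ := exists_lin (hk ▸ h.hom k₀)
  obtain ⟨j₀, hj⟩ : ∃ j, a j ≠ 0 := not_forall.1 fun e => h.ne k₀ (by simp [← ha, e])
  obtain ⟨σ, hσ, hσ', hx⟩ := exists_hyp hj
  have ea : ∀ x : J → ℂ, eval x (F k₀) = ∑ j, a j * x j := fun x => by simp [← ha]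
  have ev : ∀ y, (fun j => eval y (σ j)) ∘ Subtype.val = y := fun y =>
    funext fun j => by simp [hσ']
  let F₀ : {k // k ≠ k₀} → MvPolynomial {j // j ≠ j₀} ℂ := fun k => aeval σ (F k)
  have hc : ∀ y, y ∈ (ciK F₀).cone ↔ (fun j => eval y (σ j)) ∈ (ciK F).cone := fun y => by
    refine and_congr (not_congr ⟨fun e => ?_, fun e => ?_⟩) ⟨fun e k => ?_, fun e k => ?_⟩
    · subst e
      exact (hx 0).1 (by simp)
    · rw [← ev y, e]; rfl
    · by_cases k0 : k = k₀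
      · rw [k0]
        exact (ea _).trans ((hx _).2 (by rw [ev]))
      · exact (eval_aeval _ _ _).symm.trans (e ⟨k, k0⟩)
    · exact (eval_aeval _ _ _).trans (e k)
  have hc' : ∀ x ∈ (ciK F).cone, (fun j => eval (x ∘ Subtype.val) (σ j)) = x := fun x e =>
    (hx x).1 ((ea x).symm.trans (e.2 k₀))
  have li : ∀ y ∈ (ciK F₀).cone, LinearIndependent ℂ fun k j => eval y (pderiv j (F₀ k)) :=
    fun y hy => (li_iff_surj _).2 fun c => by
      obtain ⟨η, hη⟩ := (li_iff_surj _).1 (h.li _ ((hc y).1 hy))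
        fun k => if e : k = k₀ then 0 else c ⟨k, e⟩
      refine ⟨η ∘ Subtype.val, fun k => ?_⟩
      have e := (hx η).1 (by simpa [← ha, pderiv_X, Pi.single_apply] using hη k₀)
      rw [pderiv_lin hσ]
      simp only [congrFun e _, hη, dif_neg k.2]
  have hy₀ : x₀ ∘ Subtype.val ∈ (ciK F₀).cone := (hc _).2 (by rwa [hc' _ hx₀])
  have h₀ : SmCI F₀ fun k => d k := ⟨fun k => by simpa only [one_mul] using (h.hom k).aeval σ hσ,
    fun k => h.pos k, fun k e => (li _ hy₀).ne_zero k (funext fun j => by simp [e]), li⟩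
  have : Nonempty J := ⟨j₀⟩
  have : Nonempty {j // j ≠ j₀} := ⟨(Function.ne_iff.1 hy₀.1).choose⟩
  refine ⟨j₀, σ, F₀, h₀, hy₀, h₀.tg.pres h.tg Subtype.val_injective hσ' (fun i => i.elim)
    (fun j α hα r => ?_) (fun d e => funext fun r => by simpa using e r) (fun d _ => ⟨d, by simp⟩)
    (fun _ => ⟨0, fun i => i.elim⟩) fun z => ⟨fun hz => ⟨1, isUnit_one, (z.1, z.2 ∘ Subtype.val),
      mem_ciF.2 ((hc _).2 ?_), ?_⟩, fun ⟨t, ht, y, hy, e⟩ => ?_⟩⟩
  · change ∑ j, (α j : ℤ) * 1 = ∑ _ : Unit, 1 * 1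
    simpa using sum_eq_of_hom (hσ j) hα
  · rw [hc' _ (mem_ciF.1 hz)]
    exact mem_ciF.1 hz
  · rw [ciF_act, hc' _ (mem_ciF.1 hz)]
    exact (one_smul _ _).symm
  · rw [mem_ciF, e, ← mem_ciF (d := d)]
    exact (ciF_inv h.hom).cone_act (Prod.isUnit_iff.2 ⟨isUnit_one, ht⟩)
      (mem_ciF.2 ((hc _).1 (mem_ciF.1 hy)))

/-- Lines in projective space. -/
theorem SmCI.ln (hP : St.Pres) (h1 : (pjT 1).Ln (Pi.single none 1) fun o => o.elim 1 0) (n : ℕ) :
    ∀ {J K : Type} [Fintype J] [Fintype K] {F : K → MvPolynomial J ℂ} {d : K → ℕ}, SmCI F d →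
      (ciK F).cone.Nonempty → (∀ k, d k = 1) → Fintype.card K = n → Fintype.card J = n + 2 →
      (ciF F d).Ln 1 1 := by
  classical
  induction n with
  | zero =>
    intro J K _ _ F d h _ _ hK hJ
    have := Fintype.card_eq_zero_iff.1 hK
    have : Nonempty J := Fintype.card_pos_iff.1 (by omega)
    refine ((pres_pjT F d (Fintype.equivFinOfCardEq hJ)).ln_iff hP h.tg pjT_tg ?_ ?_).2 h1
    · funext r
      simp
    · funext o
      cases o <;> simp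
  | succ n ih =>
    intro J K _ _ F d h ⟨x₀, hx₀⟩ hd hK hJ
    obtain ⟨k₀⟩ : Nonempty K := Fintype.card_pos_iff.1 (by omega)
    obtain ⟨j₀, σ, F₀, h₀, hy, hp⟩ := h.exists_red hx₀ (hd k₀)
    have : Nonempty J := ⟨j₀⟩
    have : Nonempty {j // j ≠ j₀} := ⟨(Function.ne_iff.1 hy.1).choose⟩
    exact (hp.ln_iff hP h₀.tg h.tg (funext fun _ => by simp) (funext fun _ => by simp)).1
      (ih h₀ ⟨_, hy⟩ (fun k => hd k) (by simp; omega) (by simp; omega))

theorem Fam.Ln.cor_exK {F : Fam Empty Empty Unit J K} (h : F.Ln 1 1) (hF : F.Tg) {N k : ℕ}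
    (hA : F.Ample 1 N) (hk : F.Big k) :
    F.cor k (F.exK _ (Tq.fnd F.actT F.cone)) 0 F.cone F.cone 1 (-1) [] [] [] = 1 := by
  have := hF.toGood.fp
  have := hF.compact
  have := hF.toGood.nice
  have : IsEmpty (Fin ([] : List (ℕ × H (F.X F.cone))).length) := Fin.isEmpty'
  refine Eq.trans ?_ (h.2.2 k hk)
  rw [Fam.cor_eq0, Fam.cor_eq0]
  refine Fam.inv_congr hF.toInv (fun _ _ e a => ⟨e.conn a.1, hF.ivt_cls _ _ _ e a.2⟩)
    (fun _ _ _ _ => trivial) (fun m a b c => iff_true_intro ⟨a.conn_of hA b c (by simp),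
      Br.ext_intg fun x => ?_⟩) _
  obtain ⟨u, v, rfl⟩ := h.1 x
  have e1 := AM.ev_cls_lc hF.toGood a 1
  have e2 := h.2.1
  have e3 : Loc.intg (Tq.fnd F.actT F.cone) 1 = 0 := hF.dim.intg_deg H.isDeg_one fun e => by
    rw [Wt.intX_eq, hF.dim.intg_deg (Wt.lc_deg 0 1) (e ▸ two_ne_zero)] at e2
    exact zero_ne_one e2
  rw [ev_rep] at e1
  rw [Wt.intX_eq] at e2
  simp [e1, e2, e3, c.2, Loc.intg_deg AM.cls_deg H.isDeg_one (by simp)]

theorem Fam.Ln.cor_div (hD : St.Div) {F : Fam Empty Empty Unit J K} (h : F.Ln 1 1) (hF : F.Tg)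
    {N k : ℕ} (hA : F.Ample 1 N) (hk : F.Big k) {n : ℕ} {c : Fin n → H (F.X F.cone)}
    (hc : ∀ i, H.IsDeg 2 (c i)) :
    F.cor k (F.exK _ (Tq.fnd F.actT F.cone)) 0 _ F.cone 1 (-1) (.ofFn fun i => (0, c i)) [] [] =
      ∏ i, ev (Tq.fnd F.actT F.cone) (rep (c i)) := by
  induction n with
  | zero => exact h.cor_exK hF hA hk
  | succ n ih =>
    rw [List.ofFn_succ, hD F k _ _ hF hk (hc 0) _ _ _ (.inl one_ne_zero), ih fun i => hc i.succ,
      Fin.prod_univ_succ, Finset.sum_eq_zero fun s _ => if_pos (by simp), add_zero]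

theorem Tgt.ev_xi {T : Tgt R J K} {χ : K → R → ℤ} (h : (T.fam χ).Tg) (β : BM T.X) (a : Zs T.X) :
    ev (T.xiB χ β) (rep (T.xiH χ (H.mk a))) = ev β a.1 := by
  have := h.toGood.fp
  have := h.compact
  have := (T.xi χ).compactSpace
  have := Nice.of_homeomorph (T.xi χ).symm
  have k : H.map ((T.xi χ).symm : C(_, _)) (T.xiH χ (H.mk a)) = hcls a.1 :=
    (H.map_map _ _ _).trans ((H.map_id (T.xi χ).apply_symm_apply _).trans (hcls_val a).symm)
  have k' := Loc.intg_push ((T.xi χ).symm : C(_, _)) β (T.xiH χ (H.mk a))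
  rw [k, Loc.intg_hcls _ a.2] at k'
  exact (ev_rep _ _).trans k'

/-- **The primary invariants of degree one of a line.** -/
theorem Tf.line_of (hW : St.Well) (hP : St.Pres) (hD : St.Div)
    (h1 : (pjT 1).Ln (Pi.single none 1) fun o => o.elim 1 0) (r : ℕ)
    (F : Fin r → MvPolynomial (Fin (r + 1 + 1)) ℂ) (hF : ∀ k, (F k).IsHomogeneous 1)
    (hs : ∀ x ∈ Pub.cone F, LinearIndependent ℂ fun k j => eval x (pderiv j (F k)))
    (hc : ConnectedSpace (Pub.Var F)) (β) (hβ : Pub.IsFund Pub.scal (Pub.cone F) β) (n : ℕ)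
    (a : Fin n → Pub.Co (Pub.Var F)) (ha : ∀ i, Pub.Zc (a i) ∧ Pub.IsDeg 2 (a i)) :
    Pub.IsGW (Y := Pub.Var F) F (Pub.cone F) (Quot.mk _) 0 β n (fun i => (0, a i)) 1
      (∏ i, β (a i)) := by
  revert hs hc β a
  refine Tf.transport (F := F) (P := fun act S => (∀ x ∈ S, LinearIndependent ℂ fun k j =>
    eval x (pderiv j (F k))) → ConnectedSpace (Pub.Quo act S) → ∀ β, Pub.IsFund act S β →
      ∀ a : Fin n → Pub.Co (Pub.Quo act S), (∀ i, Pub.Zc (a i) ∧ Pub.IsDeg 2 (a i)) →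
      Pub.IsGW (Y := Pub.Quo act S) F S (Quot.mk _) 0 β n (fun i => (0, a i)) 1 (∏ i, β (a i)))
    fun hs (hc : ConnectedSpace (ci F).X) β hβ a ha => ?_
  obtain ⟨⟨x, hx⟩, -⟩ := Quot.exists_rep (Classical.arbitrary (ci F).X)
  have sm := Tf.smCI hF hs hx
  have h := sm.tg
  have hk : (ciF F fun _ => 1).Big 30 := ciF_big le_rfl
  obtain ⟨β, hb, rfl⟩ := Tf.isFund_iff.1 hβ
  choose a' e using fun i => Tf.exists_zs (X := (ci F).X) (ha i).1
  obtain rfl := funext e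
  have e1 : (ci F).xiB (fun _ _ => (1 : ℕ)) β = Tq.fnd _ _ :=
    (congrArg _ ((Tf.fund_ci sm).unique hb (Classical.epsilon_spec (Tf.fund_ci sm).exists))).trans
      (Tgt.push_fnd h)
  have key := (sm.ln hP h1 r ⟨x, hx⟩ (fun _ => rfl) (by simp) (by simp)).cor_div hD h ciF_ample hk
    (c := fun i => ciH F _ (H.mk (a' i))) fun i =>
      ((hcls_val (a' i)).symm ▸ hcls_isDeg (ha i).2 :).map _
  refine (Tf.isGW_iff F (u := 0) (c := fun i => (a' i).1)).2 ((Tf.gwo_val ?_ (fun _ => rfl) _).2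
    (Eq.trans ?_ key.symm))
  · filter_upwards [Tgt.valC h hk hW hP 0 (fun _ => 1) β 0 fun i => H.mk (a' i),
      eventually_ge_atTop 30] with k' b b'
    exact (e1 ▸ b).and (Tgt.cpc_chart h (hk.mono b') 0 _ β (by simp [Ch.Mk]) 0)
  · exact Finset.prod_congr rfl fun i _ => (Tf.fn_val β _).trans
      ((Tgt.ev_xi h β _).symm.trans (congrArg (ev · _) e1))

end Vale.Agent.P269
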