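import Vale.Agent.P269.WK.Out

/-! The contribution of one edge of degree one on the projective line. -/

namespace Vale.Agent.P269.WK

open Finset Fock B TensorProduct

lemma Vx.edge_one {f fc : Multiset ℕ → PowerSeries ℂ} (h : Vx f fc) :
    PowerSeries.coeff 0 (GG (ser f) {1} 0) = 1 := by
  have h1 : PowerSeries.constantCoeff (f {0}) = 0 := by_contra fun e => by
    simpa using h.bd {0} 0 (by simpa using e)
  rw [← Multiset.cons_zero, GG_cons, GG_zero, al, map_add, map_add, coeff_ser', mx_cons, mx_zero,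
    ins_inr, ser_zero, LinearMap.map_smul_of_tower, h.one]
  simp [h1, c1, uu]

lemma W2s_one {f fc g gc : Multiset ℕ → PowerSeries ℂ} (hf : Vx f fc) (hg : Vx g gc) :
    W2s (ser f) (ser g) 1 1 0 0 0 = 1 := by
  have e : Pt 1 = {{1}} := by
    ext μ
    rw [mem_Pt, mem_singleton]
    refine ⟨fun h => ?_, by rintro rfl; simp⟩
    have h1 := card_le_sum h.2
    have h2 : Multiset.card μ ≠ 0 := fun k => by simp [Multiset.card_eq_zero.1 k] at h
    obtain ⟨a, rfl⟩ := Multiset.card_eq_one.1 (show Multiset.card μ = 1 by omega)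
    simpa using h.1
  have e' : cz 0 = PowerSeries.coeff 0 := cz_nat 0
  rw [W2s, e, sum_singleton, T2]
  simp only [Multiset.card_zero, Nat.cast_zero, add_zero, e', PowerSeries.coeff_mul,
    Nat.antidiagonal_zero, sum_singleton, hf.edge_one, hg.edge_one]
  simp [wg]

lemma co_aeval_zero (P : Polynomial ℂ) : (Polynomial.aeval tt P).co 0 = P.coeff 0 := by
  induction P using Polynomial.induction_on with
  | C a => simp [Hat.algebraMap_co, Hat.C_apply]
  | add P Q h h' => rw [map_add, Hat.co_add, h, h', Polynomial.coeff_add]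
  | monomial k a h =>
    rw [pow_succ, ← mul_assoc, map_mul, Polynomial.aeval_X, tt, Hat.co_mul_single, ← tt,
      co_aeval _ _ (by omega), zero_mul, Polynomial.mul_coeff_zero, Polynomial.coeff_X_zero,
      mul_zero]

theorem one_of_loc {H : Type} [AddCommGroup H] [Module F H] {p : Par F H} [Ev p] {κ : Type}
    [Fintype κ] {fr : Frame p κ} {A : Type} [CommRing A] [Algebra F A] {ac : Act fr A} (h : IsPt fr)
    {a : Fin 2 → ℂ} (ha : a 0 ≠ a 1) {V C : Fin 2 → ℤ → ℕ → Multiset ℕ → ℂ}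
    (hV : ∀ i, Raw (V i) (C i)) {T : Subring F}
    (L : LocP ac (fun i => algebraMap ℂ F (a i) * tt) T
      fun i j y => Hat.ofPS ℂ (.mk fun m => V i j m y)) : ∑ᶠ m, L.ZZ m 1 (-1) 1 = 1 := by
  have e (i) : tw (fun i => algebraMap ℂ F (a i) * tt) i = algebraMap ℂ F (tw a i) * tt := by
    rw [tw, tw, map_sub, sub_mul]
  have hx : algebraMap ℂ F (a 0) * tt ≠ algebraMap ℂ F (a 1) * tt := fun e =>
    ha ((algebraMap ℂ F).injective (mul_right_cancel₀ tt_ne e))
  have k := L.step (f := fun i => vtx (tw a i) (V i)) (v := fun i => vz (tw a i) (V i)) hx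
    (fun i => (hV i).vx (tw a i)) (fun i => (hV i).mx_vz _) (fun i j y => by
      have := (hV i).nrm (tw_ne ha i) tt_ne j y
      simp only [Algebra.smul_def] at this ⊢
      rw [(hV i).ofPS, e, this]) h 1 1 (-1) 0 0
  rw [mo2, mo_zero, mo_zero, mul_one, W2z, if_pos zero_le_one] at k
  rw [finsum_eq_single _ 1 fun m hm => ?_, k]
  · simp [W2s_one ((hV 0).vx (tw a 0)) ((hV 1).vx (tw a 1))]
  · rcases m with _ | m
    · rw [L.loc2' _ _ one_ne_zero, LinearMap.zero_apply]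
    · rw [L.low hx _ _ _ (by omega), LinearMap.zero_apply]

variable {H : Type} [AddCommGroup H] [Module ℂ H] {p : Par ℂ H} {κ : Type} [Fintype κ]
  {fr : Frame p κ} {A : Type} [CommRing A] [Algebra ℂ A] [Ev p]

theorem one_of_out (h : IsPt fr) {ac : Act fr A} {w : Fin 2 → ℂ} (hw : w 0 ≠ w 1)
    {R : Type} [Fintype R] {Z : Fin 2 → (R → ℤ) → ℕ → ℤ → S (p.fs ℕ) →ₗ[ℂ] ℂ}
    {C : Fin 2 → ℤ → ℕ → Multiset ℕ → ℂ} (hR : ∀ n, Raw (fun j m x => Z n 0 m j (mp fr x)) (C n))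
    {a : Fin 2 → R → ℤ} {Z0 : (Option R → ℤ) → ℤ → S ((p.pi (Fin 2)).fs ℕ) →ₗ[ℂ] ℂ}
    (loc : ∀ ZF : (Fin 2 → R → ℤ) → (Fin 2 → ℤ) → S (((p.bc F).pi (Fin 2)).fs ℕ) →ₗ[F] F,
      (∀ β jv x, ZF β jv (bcS _ (isEvS_jV p F) (prd p x)) =
        ∏ n, Hat.ofPS ℂ (PowerSeries.mk fun m => Z n (β n) m (jv n) (x n))) →
      Nonempty (LocOut (r := 1) ac w 0 a Z0 ZF)) : Z0 (fun o => o.elim 1 0) (-1) 1 = 1 := by
  choose ZB ZF h1 h2 using fun (β : Fin 2 → R → ℤ) (jv : Fin 2 → ℤ) =>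
    exists_ZB (fun n m => Z n (β n) m (jv n)) fun n m x => by rw [par_eq]
  have h3 : ∀ β jv x, ZF β jv (bcS _ (isEvS_jV p F) (prd p x)) =
      ∏ n, Hat.ofPS ℂ (PowerSeries.mk fun m => Z n (β n) m (jv n) (x n)) := fun β jv x => by
    rw [h2, h1, map_prod]
  obtain ⟨⟨ZT, c0, tup, t0, ZZ, l1, lam, l0, l2, l2', l3⟩⟩ := loc ZF h3
  have e : chi (r := 1) w (0 : Fin 2 → A) = χ _ fun i => algebraMap ℂ F (w i) * tt := by
    funext i
    rw [chi, Pi.zero_apply, tmul_zero, add_zero, χ, show w i • tt = _ from Algebra.smul_def (w i) tt]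
    rfl
  rw [e] at l1 l2 l3
  have k := one_of_loc (p := p.bc F) (ac := ac.bc F) (V := fun n j m x => Z n 0 m j (mp fr x))
    (h.bc F) hw hR (T := ⊤) ⟨ZF 0, fun jv y y' => ?_, (ZZ · 0), fun _ _ _ _ => trivial,
      fun j y => (l2 0 j y).mono fun N hN => hN.trans ?_, l2' 0, fun m e j y => l3 m 0 e j y⟩
  · have k' := l1 0 1 (-1) 1
    rw [t0, sum_singleton, map_one (bcS _ _), map_one (Fock.map _ _), show (1 : ℤ) - ∑ n, dgV a n ((0 : Fin 2 → R → ℤ) n)
      none = 1 by simp [dgV]] at k'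
    rw [← c0, ← co_aeval_zero, k'.trans k]
    simp [Hat.one_def]
  · rw [← bcS_τ, ← bcS_τ, ← map_mul, ← prd_mp, h3, Fin.prod_univ_two]
    rfl
  · rw [l0, one_mul]
    refine finsum_congr fun jv => finsum_congr fun _ =>
      congrArg (· * _) (prod_congr rfl fun i _ => ?_)
    have : ∀ i : Fin 2, univ.erase i = {i.rev} := by decide
    rw [this, prod_singleton, tw, ← sub_mul, ← map_sub]
    exact congrArg (· ^ jv i) (Algebra.smul_def (w i.rev - w i) tt)

end Vale.Agent.P269.WK
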